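import Vale.Agent.P038.H71.Plan
import Vale.Agent.P038.H391.MF

/-!
# Seymour's second neighbourhood conjecture (P038): assembly

`H71.plan_lt` (strict (G) in the arc-minimal normal form) and `H391.no_strict` (the min-cut
comparison) contradict each other, so there is no normal form with `lam = 1`.
-/

namespace Vale.Agent.P038.H664

open Finset Vale.Agent.P038 Vale.Agent.P038.H139

universe u

theorem no_nf (V : Type u) [Fintype V] [Nonempty V] (D : OGraph V) (w : V → ℝ)
    (h0 : NF 1 D w) : False := by
  classical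
  obtain ⟨D, w, h⟩ := exists_nfmin h0
  have hnb : ∀ X : Finset V, H391.nb (fun a => cl D {a}) X = cl D X := by
    intro X
    ext y
    rw [H391.mem_nb, mem_cl]
    constructor
    · rintro ⟨x, hx, hy⟩
      rcases mem_cl.1 hy with hy | ⟨z, hz, hzy⟩
      · rw [Finset.mem_singleton] at hy
        exact Or.inl (hy ▸ hx)
      · rw [Finset.mem_singleton] at hz
        exact Or.inr ⟨x, hx, hz ▸ hzy⟩
    · rintro (hy | ⟨x, hx, hxy⟩)
      · exact ⟨y, hy, mem_cl.2 (Or.inl (Finset.mem_singleton_self y))⟩
      · exact ⟨x, hx, mem_cl.2 (Or.inr ⟨x, Finset.mem_singleton_self x, hxy⟩)⟩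
  have hpos : ∀ v, 0 < w v := h.toNF.pos
  refine H391.no_strict (fun a => cl D {a}) ?_ ?_ w hpos ?_ ?_
  · intro a
    exact mem_cl.2 (Or.inl (Finset.mem_singleton_self a))
  · intro a b hb ha
    rcases mem_cl.1 hb with hb | ⟨z, hz, hzb⟩
    · exact (Finset.mem_singleton.1 hb).symm
    · rw [Finset.mem_singleton] at hz
      subst hz
      rcases mem_cl.1 ha with ha | ⟨y, hy, hya⟩
      · exact Finset.mem_singleton.1 ha
      · rw [Finset.mem_singleton] at hy
        subst hy
        exact absurd hya (D.asymm _ _ hzb)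
  · intro a
    by_contra hcon
    have h1 : N1 D a = ∅ := by
      rw [Finset.eq_empty_iff_forall_notMem]
      intro b hb
      have hb' := mem_N1.1 hb
      apply hcon
      refine ⟨b, mem_cl.2 (Or.inr ⟨a, Finset.mem_singleton_self a, hb'⟩), ?_⟩
      rintro rfl
      exact D.loopless _ hb'
    have h2 := h.toNF.one a
    unfold Fw at h2
    rw [h1] at h2
    have h3 : 0 ≤ W w (N2 D a) := Finset.sum_nonneg (fun i _ => (hpos i).le)
    have h4 : W w (∅ : Finset V) = 0 := by simp [W]
    rw [h4] at h2
    linarith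
  · intro X hX
    rw [hnb] at hX
    have hL : H71.Lx D X ≠ ∅ := by
      intro hE
      apply hX
      ext y
      rw [mem_cl]
      constructor
      · rintro (hy | ⟨x, hx, hxy⟩)
        · exact hy
        · by_contra hyX
          have : y ∈ H71.Lx D X := Finset.mem_sdiff.2 ⟨mem_outS.2 ⟨x, hx, hxy⟩, hyX⟩
          rw [hE] at this
          exact absurd this (Finset.notMem_empty y)
      · exact Or.inl
    have hlt := H71.plan_lt h X ∅ (Finset.empty_ssubset.2 (Finset.nonempty_iff_ne_empty.2 hL))
    unfold H71.dd at hlt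
    have hE : cl D (∅ : Finset V) \ X = ∅ := by
      rw [Finset.eq_empty_iff_forall_notMem]
      intro y hy
      rcases mem_cl.1 (Finset.mem_sdiff.1 hy).1 with hy | ⟨x, hx, _⟩
      · exact absurd hy (Finset.notMem_empty y)
      · exact absurd hx (Finset.notMem_empty x)
    rw [hE] at hlt
    have h00 : W w (∅ : Finset V) = 0 := by simp [W]
    rw [h00] at hlt
    -- `cl X = X ∪ L`, disjoint
    have hdisj : Disjoint X (H71.Lx D X) := Finset.disjoint_sdiff
    have hclX : cl D X = X ∪ H71.Lx D X := by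
      ext y
      rw [mem_cl, Finset.mem_union]
      constructor
      · rintro (hy | ⟨x, hx, hxy⟩)
        · exact Or.inl hy
        · by_cases hyX : y ∈ X
          · exact Or.inl hyX
          · exact Or.inr (Finset.mem_sdiff.2 ⟨mem_outS.2 ⟨x, hx, hxy⟩, hyX⟩)
      · rintro (hy | hy)
        · exact Or.inl hy
        · exact Or.inr (mem_outS.1 (Finset.mem_sdiff.1 hy).1)
    have hW1 : W w (cl D X) = W w X + W w (H71.Lx D X) := by
      rw [hclX]
      exact Finset.sum_union hdisj
    have hsub : cl D (cl D X) ⊆ X ∪ (cl D (H71.Lx D X) \ X) := by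
      intro y hy
      by_cases hyX : y ∈ X
      · exact Finset.mem_union_left _ hyX
      · refine Finset.mem_union_right _ (Finset.mem_sdiff.2 ⟨?_, hyX⟩)
        rcases mem_cl.1 hy with hy | ⟨x, hx, hxy⟩
        · rw [hclX] at hy
          rcases Finset.mem_union.1 hy with hy | hy
          · exact absurd hy hyX
          · exact mem_cl.2 (Or.inl hy)
        · rw [hclX] at hx
          rcases Finset.mem_union.1 hx with hx | hx
          · exact mem_cl.2 (Or.inl (Finset.mem_sdiff.2 ⟨mem_outS.2 ⟨x, hx, hxy⟩, hyX⟩))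
          · exact mem_cl.2 (Or.inr ⟨x, hx, hxy⟩)
    have hW2 : W w (cl D (cl D X)) ≤ W w X + W w (cl D (H71.Lx D X) \ X) := by
      have h1 : W w (cl D (cl D X)) ≤ W w (X ∪ (cl D (H71.Lx D X) \ X)) :=
        Finset.sum_le_sum_of_subset_of_nonneg hsub (fun i _ _ => (hpos i).le)
      have h2 : W w (X ∪ (cl D (H71.Lx D X) \ X)) = W w X + W w (cl D (H71.Lx D X) \ X) :=
        Finset.sum_union Finset.disjoint_sdiff
      rw [h2] at h1
      exact h1
    unfold H391.hh
    rw [hnb, hnb]
    change W w (cl D (cl D X)) - W w (cl D X) < W w (cl D X) - W w X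
    rw [hW1]
    linarith

/-- The weighted second neighbourhood theorem, for all finite oriented graphs. -/
theorem snc_weighted {V : Type u} [Fintype V] [Nonempty V] (D : OGraph V) (w : V → ℝ)
    (hw : ∀ v, 0 ≤ w v) : ∃ v, ∑ u ∈ N1 D v, w u ≤ ∑ u ∈ N2 D v, w u := by
  obtain ⟨v, hv⟩ := snc_of_noNF (lam := 1) zero_le_one
    (fun V _ _ D w h => no_nf V D w h) D w hw
  exact ⟨v, by simpa using hv⟩

/-- **Seymour's second neighbourhood conjecture** for all finite oriented graphs. -/
theorem snc {V : Type u} [Fintype V] [Nonempty V] (D : OGraph V) :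
    ∃ v, (N1 D v).card ≤ (N2 D v).card := by
  obtain ⟨v, hv⟩ := snc_weighted D (fun _ => (1 : ℝ)) (fun _ => zero_le_one)
  refine ⟨v, ?_⟩
  have : ((N1 D v).card : ℝ) ≤ (N2 D v).card := by simpa using hv
  exact_mod_cast this

end Vale.Agent.P038.H664
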